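import Vale.Agent.P355.H637.MrgV

/-! Rows of the checked blocks, cut into segments of columns. -/

namespace Vale.Agent.P355.H909V

open Finset Vale.Agent.P355
open Vale.Agent.P355.H693.Inj (Mt)
open Vale.Agent.P355.H129 (dg)
open Vale.Agent.P355.H387 (seq seq_eq biasC CT AT AF Cls evL evL_append loadL loadL_sound zeroT eqT eqT_sound)
open Vale.Agent.P355.H693W (e0)
open Vale.Agent.P355.H129V
open Vale.Agent.P355.H637 (CV)

/-- a row of the four matrices. -/
abbrev U4 : Type := ℕ × ℕ × ℕ × ℕ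

/-- `n` flags of a row, without the diagonal. -/
noncomputable def rowM (ct : CT) (w oU4 MW A B : ℕ) (fk : Fg × Fg) (n : ℕ) :
    List (Fg × Fg) → ℕ → ℕ → ℕ → ℕ → ℕ → ℕ → AT → AT → (ℕ → AT → AT → Bool) → Bool :=
  Nat.rec (motive := fun _ => List (Fg × Fg) → ℕ → ℕ → ℕ → ℕ → ℕ → ℕ → AT → AT →
      (ℕ → AT → AT → Bool) → Bool)
    (fun _ _ _ _ _ _ S P Q k => k S P Q)
    (fun _ ih L U0 U1 U2 U3 R S P Q k => List.rec (motive := fun _ => Bool) false
      (fun f' L' _ =>
      seq (Nat.land U0 MW) fun u0 => seq (Nat.land U1 MW) fun u1 =>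
      seq (Nat.land U2 MW) fun u2 => seq (Nat.land U3 MW) fun u3 =>
      pair ct oU4 A B fk.1 f' 2 u0 u1 u2 u3 R S P Q fun R' S' P' Q' =>
      seq (Nat.shiftRight U0 w) fun V0 => seq (Nat.shiftRight U1 w) fun V1 =>
      seq (Nat.shiftRight U2 w) fun V2 => seq (Nat.shiftRight U3 w) fun V3 =>
      ih L' V0 V1 V2 V3 R' S' P' Q' k) L) n

variable {F : Bool → Mt → ℝ}

/-- value of `n` entries of a row. -/
noncomputable def sv (F : Bool → Mt → ℝ) (w oU : ℕ) (fk : Fg × Fg) (n : ℕ)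
    (L : List (Fg × Fg)) (U0 U1 U2 U3 : ℕ) : ℝ :=
  ∑ l ∈ range n, 2 * pv F fk.1 (L.getD l default).1 (qd w oU U0 l) (qd w oU U1 l) (qd w oU U2 l)
      (qd w oU U3 l)

theorem rowM_sound (hF : Cls F) {ct : CT} {w oU : ℕ} {fk : Fg × Fg} (h : okF fk = true)
    (k : ℕ → AT → AT → Bool) (n : ℕ) :
    ∀ (L : List (Fg × Fg)) (_ : ∀ g ∈ L, okF g = true) (U0 U1 U2 U3 R S : ℕ) (P Q : AT)
      (V W : ℝ), AF F ct P S V → AF F ct Q S W →
      rowM ct w (Nat.mul 4 oU) (2 ^ w - 1) (Nat.add biasC (cv (mp e0.1) (mp e0.1) fk.1.P))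
        (cv (mp e0.1) (mp e0.1) fk.1.N) fk n L U0 U1 U2 U3 R S P Q k = true →
      ∃ S' P' Q' V' W', AF F ct P' S' V' ∧ AF F ct Q' S' W' ∧
        V' - W' = V - W + sv F w oU fk n L U0 U1 U2 U3 ∧ k S' P' Q' = true := by
  have h1 := (okF_spec h).1
  induction n with
  | zero =>
    intro L hL U0 U1 U2 U3 R S P Q V W hP hQ hk
    refine ⟨S, P, Q, V, W, hP, hQ, ?_, hk⟩
    unfold sv
    rw [sum_range_zero, add_zero]
  | succ n ih =>
    intro L hL U0 U1 U2 U3 R S P Q V W hP hQ hk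
    cases L with
    | nil => exact absurd hk (by simp [rowM])
    | cons f' L =>
      have hk' : (seq (Nat.land U0 (2 ^ w - 1)) fun u0 => seq (Nat.land U1 (2 ^ w - 1)) fun u1 =>
        seq (Nat.land U2 (2 ^ w - 1)) fun u2 => seq (Nat.land U3 (2 ^ w - 1)) fun u3 =>
        pair ct (Nat.mul 4 oU) (Nat.add biasC (cv (mp e0.1) (mp e0.1) fk.1.P))
          (cv (mp e0.1) (mp e0.1) fk.1.N) fk.1 f' 2 u0 u1 u2 u3 R S P Q fun R' S' P' Q' =>
        seq (Nat.shiftRight U0 w) fun V0 => seq (Nat.shiftRight U1 w) fun V1 =>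
        seq (Nat.shiftRight U2 w) fun V2 => seq (Nat.shiftRight U3 w) fun V3 =>
        rowM ct w (Nat.mul 4 oU) (2 ^ w - 1) (Nat.add biasC (cv (mp e0.1) (mp e0.1) fk.1.P))
          (cv (mp e0.1) (mp e0.1) fk.1.N) fk n L V0 V1 V2 V3 R' S' P' Q' k) = true := hk
      simp only [seq_eq, dg_zero] at hk'
      obtain ⟨R1, S1, P1, Q1, V1, W1, a1, a2, a3, a4⟩ :=
        pair_sound hF h1 (hL f' List.mem_cons_self) hP hQ _ hk'
      obtain ⟨S2, P2, Q2, V2, W2, b1, b2, b3, b4⟩ :=
        ih L (fun g hg => hL g (List.mem_cons_of_mem _ hg)) _ _ _ _ _ _ _ _ _ _ a1 a2 a4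
      refine ⟨S2, P2, Q2, V2, W2, b1, b2, ?_, b4⟩
      rw [b3, a3]
      unfold sv
      rw [Finset.sum_range_succ']
      simp only [qd_succ, List.getD_cons_succ, List.getD_cons_zero]
      unfold qd
      push_cast
      ring

/-- `i` steps down a list. -/
noncomputable def dropK (i : ℕ) : List (Fg × Fg) → (List (Fg × Fg) → Bool) → Bool :=
  Nat.rec (motive := fun _ => List (Fg × Fg) → (List (Fg × Fg) → Bool) → Bool)
    (fun L k => k L)
    (fun _ ih L k => List.rec (motive := fun _ => Bool) false (fun _ L' _ => ih L' k) L) i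

theorem dropK_eq (i : ℕ) : ∀ (L : List (Fg × Fg)) (k : List (Fg × Fg) → Bool),
    dropK i L k = true → k (L.drop i) = true := by
  induction i with
  | zero => intro L k h; exact h
  | succ i ih =>
    intro L k h
    cases L with
    | nil => exact absurd h (by simp [dropK])
    | cons a L => exact ih L k h

/-- columns `l, …, l + n - 1` of row `i` (`d = 0`), or columns `l, …, i` (`d = 1`, `i = l + n`). -/
noncomputable def ckS (ct : CT) (fl : List (Fg × Fg)) (w oU i l n d : ℕ) (u : U4) (R : ℕ)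
    (out : List (ℕ × ℕ)) : Bool :=
  seq (Nat.sub (Nat.pow 2 w) 1) fun MW => seq (Nat.mul 4 oU) fun oU4 =>
  seq (pr e0.1) fun a0 => seq (pc e0.1) fun c0 =>
  dropK l fl fun Ll => dropK i fl fun Li =>
  List.rec (motive := fun _ => Bool) false (fun f _ _ =>
    cs a0 c0 f.1.P 0 fun Kp => cs a0 c0 f.1.N 0 fun B => seq (Nat.add biasC Kp) fun A =>
    seq (Nat.mul w l) fun wl =>
    seq (Nat.shiftRight u.1 wl) fun U0 => seq (Nat.shiftRight u.2.1 wl) fun U1 =>
    seq (Nat.shiftRight u.2.2.1 wl) fun U2 => seq (Nat.shiftRight u.2.2.2 wl) fun U3 =>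
    Nat.rec (motive := fun _ => Bool)
      (rowM ct w oU4 MW A B f n Ll U0 U1 U2 U3 R 0 (zeroT ct) (zeroT ct) fun S P Q =>
        loadL out S Q P fun S' Q' P' => cond (Nat.blt S' 9223372036854775808) (eqT P' Q') false)
      (fun _ _ => rowN ct w oU4 MW A B f n Ll U0 U1 U2 U3 R 0 (zeroT ct) (zeroT ct) fun S P Q =>
        loadL out S Q P fun S' Q' P' => cond (Nat.blt S' 9223372036854775808) (eqT P' Q') false)
      d) Li

/-- entry of a row. -/
noncomputable def pe (F : Bool → Mt → ℝ) (w oU : ℕ) (fl : List (Fg × Fg)) (i : ℕ) (u : U4)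
    (l : ℕ) : ℝ :=
  pv F (fl.getD i default).1 (fl.getD l default).1 (qd w oU u.1 l) (qd w oU u.2.1 l)
    (qd w oU u.2.2.1 l) (qd w oU u.2.2.2 l)

/-- value of the columns `l, …, m - 1` of row `i`, plus the diagonal entry for `d ≠ 0`. -/
def SG (ct : CT) (fl : List (Fg × Fg)) (w oU i l m d : ℕ) (u : U4) (out : List (ℕ × ℕ)) : Prop :=
  ∀ F : Bool → Mt → ℝ, Cls F →
    ∑ a ∈ range m, 2 * pe F w oU fl i u a + (if d = 0 then 0 else pe F w oU fl i u m)
      = ∑ a ∈ range l, 2 * pe F w oU fl i u a + evL F ct out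

theorem qd_shift (w oU U l a : ℕ) : qd w oU (Nat.shiftRight U (w * l)) a = qd w oU U (l + a) := by
  unfold qd dg
  have : Nat.shiftRight U (w * l) = U / 2 ^ (w * l) := Nat.shiftRight_eq_div_pow U (w * l)
  rw [this, Nat.div_div_eq_div_mul, pow_mul, ← pow_add]

theorem getD_drop (fl : List (Fg × Fg)) (l a : ℕ) :
    (fl.drop l).getD a default = fl.getD (l + a) default := by
  simp only [List.getD_eq_getElem?_getD, List.getElem?_drop]

/-- **a checked segment.** -/
theorem SG.of_ck {ct : CT} {fl : List (Fg × Fg)} {w oU i l n d m : ℕ} {u : U4} {R : ℕ}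
    {out : List (ℕ × ℕ)} (hfl : fl.all okF = true) (hm : l + n = m) (hd : d = 0 ∨ i = m)
    (hk : ckS ct fl w oU i l n d u R out = true) : SG ct fl w oU i l m d u out := by
  intro F hF
  rw [List.all_eq_true] at hfl
  unfold ckS at hk
  simp only [seq_eq] at hk
  have hk1 := dropK_eq _ _ _ hk
  have hk2 := dropK_eq _ _ _ hk1
  clear hk hk1
  have hLl : ∀ g ∈ fl.drop l, okF g = true := fun g hg => hfl g (List.mem_of_mem_drop hg)
  have hLi : ∀ g ∈ fl.drop i, okF g = true := fun g hg => hfl g (List.mem_of_mem_drop hg)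
  have hgi : fl.getD i default = (fl.drop i).getD 0 default := by rw [getD_drop, add_zero]
  generalize fl.drop i = Li at hk2 hLi hgi
  cases Li with
  | nil => exact absurd hk2 (by simp)
  | cons f Li =>
    have hf := hLi f List.mem_cons_self
    obtain ⟨q1, q2, q3, q4, -⟩ := Fg.ok_spec (okF_spec hf).1
    have hfi : fl.getD i default = f := hgi
    simp only [cs_eq (pkR e0.1) (pkC e0.1) q3 q4 _ q1, cs_eq (pkR e0.1) (pkC e0.1) q3 q4 _ q2,
      Nat.zero_add] at hk2
    have hend : ∀ {S1 : ℕ} {P1 Q1 : AT} {V1 W1 : ℝ}, AF F ct P1 S1 V1 → AF F ct Q1 S1 W1 →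
        (loadL out S1 Q1 P1 fun S' Q' P' =>
          cond (Nat.blt S' 9223372036854775808) (eqT P' Q') false) = true →
        V1 - W1 = evL F ct out := by
      intro S1 P1 Q1 V1 W1 a1 a2 a4
      obtain ⟨S2, Q2, P2, W2, V2, b1, b2, b3, b4⟩ := loadL_sound _ _ _ _ _ _ _ a2 a1 a4
      cases hz : Nat.blt S2 9223372036854775808 with
      | false => rw [hz] at b4; simp at b4
      | true =>
        rw [hz] at b4
        simp only [cond_true] at b4
        have hS : S2 < 2 ^ 63 := by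
          rw [Nat.blt_eq] at hz
          norm_num; exact hz
        have := eqT_sound b2 b1 hS hS b4
        linarith
    have hqd : ∀ U a, qd w oU (Nat.shiftRight U (Nat.mul w l)) a = qd w oU U (l + a) :=
      fun U a => qd_shift w oU U l a
    cases d with
    | zero =>
      have hk3 : (rowM ct w (Nat.mul 4 oU) (2 ^ w - 1)
        (Nat.add biasC (cv (mp e0.1) (mp e0.1) f.1.P)) (cv (mp e0.1) (mp e0.1) f.1.N) f n
        (fl.drop l) (Nat.shiftRight u.1 (Nat.mul w l)) (Nat.shiftRight u.2.1 (Nat.mul w l))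
        (Nat.shiftRight u.2.2.1 (Nat.mul w l)) (Nat.shiftRight u.2.2.2 (Nat.mul w l)) R 0
        (zeroT ct) (zeroT ct) fun S P Q => loadL out S Q P fun S' Q' P' =>
          cond (Nat.blt S' 9223372036854775808) (eqT P' Q') false) = true := hk2
      obtain ⟨S1, P1, Q1, V1, W1, a1, a2, a3, a4⟩ := rowM_sound hF hf _ n _ hLl _ _ _ _ _ _ _ _
        0 0 (H387.AF.zero ct) (H387.AF.zero ct) hk3
      have h5 := hend a1 a2 a4
      rw [h5] at a3
      rw [a3, ← hm, Finset.sum_range_add, if_pos rfl]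
      have h6 : sv F w oU f n (fl.drop l) (Nat.shiftRight u.1 (Nat.mul w l))
          (Nat.shiftRight u.2.1 (Nat.mul w l)) (Nat.shiftRight u.2.2.1 (Nat.mul w l))
          (Nat.shiftRight u.2.2.2 (Nat.mul w l))
          = ∑ a ∈ range n, 2 * pe F w oU fl i u (l + a) := by
        unfold sv pe
        refine sum_congr rfl fun a _ => ?_
        rw [hqd, hqd, hqd, hqd, getD_drop, hfi]
      rw [h6]
      ring
    | succ d =>
      have him : i = m := by
        rcases hd with h | h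
        · exact absurd h (Nat.succ_ne_zero d)
        · exact h
      have hk3 : (rowN ct w (Nat.mul 4 oU) (2 ^ w - 1)
        (Nat.add biasC (cv (mp e0.1) (mp e0.1) f.1.P)) (cv (mp e0.1) (mp e0.1) f.1.N) f n
        (fl.drop l) (Nat.shiftRight u.1 (Nat.mul w l)) (Nat.shiftRight u.2.1 (Nat.mul w l))
        (Nat.shiftRight u.2.2.1 (Nat.mul w l)) (Nat.shiftRight u.2.2.2 (Nat.mul w l)) R 0
        (zeroT ct) (zeroT ct) fun S P Q => loadL out S Q P fun S' Q' P' =>
          cond (Nat.blt S' 9223372036854775808) (eqT P' Q') false) = true := hk2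
      obtain ⟨S1, P1, Q1, V1, W1, a1, a2, a3, a4⟩ := rowN_sound hF hf _ n _ hLl _ _ _ _ _ _ _ _
        0 0 (H387.AF.zero ct) (H387.AF.zero ct) hk3
      have h5 := hend a1 a2 a4
      rw [h5] at a3
      rw [a3, if_neg (Nat.succ_ne_zero d)]
      have h6 : rv' F w oU f n (fl.drop l) (Nat.shiftRight u.1 (Nat.mul w l))
          (Nat.shiftRight u.2.1 (Nat.mul w l)) (Nat.shiftRight u.2.2.1 (Nat.mul w l))
          (Nat.shiftRight u.2.2.2 (Nat.mul w l))
          = ∑ a ∈ range n, 2 * pe F w oU fl i u (l + a) + pe F w oU fl i u m := by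
        unfold rv' pe
        rw [hqd, hqd, hqd, hqd, hm]
        have hfm : (fl.getD m default) = f := by rw [← him]; exact hfi
        rw [hfm, hfi]
        congr 1
        refine sum_congr rfl fun a _ => ?_
        rw [hqd, hqd, hqd, hqd, getD_drop]
      rw [h6, ← hm, Finset.sum_range_add]
      ring

/-- two segments. -/
theorem SG.app {ct : CT} {fl : List (Fg × Fg)} {w oU i l m r d : ℕ} {u : U4}
    {o o' : List (ℕ × ℕ)} (h : SG ct fl w oU i l m 0 u o) (h' : SG ct fl w oU i m r d u o') :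
    SG ct fl w oU i l r d u (o ++ o') := fun F hF => by
  have h1 := h F hF
  have h2 := h' F hF
  rw [if_pos rfl, add_zero] at h1
  rw [h2, h1, evL_append]
  ring

/-- **a row from its segments.** -/
theorem SG.row {ct : CT} {fl : List (Fg × Fg)} {w oU i d : ℕ} {u : U4} {R : ℕ}
    {o : List (ℕ × ℕ)} (h : SG ct fl w oU i 0 i (d + 1) u o) :
    CV ct fl w oU i [(u.1, u.2.1, u.2.2.1, u.2.2.2, R)] o := fun F hF => by
  have h1 := h F hF
  rw [if_neg (Nat.succ_ne_zero d), sum_range_zero, zero_add] at h1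
  rw [← h1]
  unfold Rvs
  rw [List.length_singleton, Finset.sum_range_one, add_zero, getD_drop, add_zero]
  unfold rv' pe
  rfl

end Vale.Agent.P355.H909V
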