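import Vale.Agent.P355.H387.RowChk

/-! Values of sparse lists over a table and over its first leaves. -/

namespace Vale.Agent.P355.H909V.Tr

open Vale.Agent.P355
open Vale.Agent.P355.H693.Inj (Mt)
open Vale.Agent.P355.H387

/-- the leftmost leaf of `t` is `C`. -/
noncomputable def lm (C : ℕ) (t : CT) : Bool :=
  CT.rec (motive := fun _ => Bool) (fun C' => Nat.beq C C') (fun _ _ ia _ => ia) t

/-- `a` is the table of the first `2 ^ D` leaves of `t`. -/
noncomputable def okD (D : ℕ) : CT → CT → Bool :=
  Nat.rec (motive := fun _ => CT → CT → Bool)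
    (fun a t => CT.rec (motive := fun _ => Bool) (fun C => lm C t) (fun _ _ _ _ => false) a)
    (fun _ ih a t => CT.rec (motive := fun _ => Bool) (fun _ => false)
      (fun a1 a2 _ _ => CT.rec (motive := fun _ => Bool) (fun _ => false)
        (fun t1 t2 _ _ => cond (ih a1 t1) (ih a2 t2) false) t) a) D

theorem lm_get {C : ℕ} {t : CT} (h : lm C t = true) (lo : ℕ) : t.get 0 lo = ent C lo := by
  induction t with
  | lf C' =>
    have h1 : Nat.beq C C' = true := h
    have h2 := Nat.eq_of_beq_eq_true h1
    rw [h2]
    rfl
  | nd a b iha _ =>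
    have h1 : lm C a = true := h
    have h2 : (CT.nd a b).get 0 lo = a.get 0 lo := rfl
    rw [h2]
    exact iha h1

theorem get_nd (a b : CT) (hi lo : ℕ) : (CT.nd a b).get hi lo
    = Nat.rec (motive := fun _ => ℕ) (a.get (Nat.shiftRight hi 1) lo)
      (fun _ _ => b.get (Nat.shiftRight hi 1) lo) (Nat.land hi 1) := rfl

theorem okD_get (D : ℕ) : ∀ {a t : CT}, okD D a t = true → ∀ (hi lo : ℕ), hi < 2 ^ D →
    t.get hi lo = a.get hi lo := by
  induction D with
  | zero =>
    intro a t h hi lo hh
    have h0 : hi = 0 := by simpa using hh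
    subst h0
    cases a with
    | lf C => exact lm_get h lo
    | nd _ _ => exact absurd h (by simp [okD])
  | succ D ih =>
    intro a t h hi lo hh
    cases a with
    | lf _ => exact absurd h (by simp [okD])
    | nd a1 a2 =>
      cases t with
      | lf _ => exact absurd h (by simp [okD])
      | nd t1 t2 =>
        have h1 : cond (okD D a1 t1) (okD D a2 t2) false = true := h
        have h2 : okD D a1 t1 = true := by
          cases hz : okD D a1 t1 with
          | false => rw [hz] at h1; exact absurd h1 (by simp)
          | true => rfl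
        have h3 : okD D a2 t2 = true := by rw [h2] at h1; exact h1
        have hs : Nat.shiftRight hi 1 < 2 ^ D := by
          have : Nat.shiftRight hi 1 = hi / 2 ^ 1 := Nat.shiftRight_eq_div_pow hi 1
          rw [this, pow_one]
          rw [pow_succ] at hh
          omega
        rw [get_nd, get_nd, ih h2 _ lo hs, ih h3 _ lo hs]

/-- the identifiers of `n` entries are small. -/
noncomputable def okN (H : ℕ) (n : ℕ) : ℕ → Bool :=
  Nat.rec (motive := fun _ => ℕ → Bool) (fun _ => true)
    (fun _ ih C => cond (Nat.blt (Nat.land (Nat.shiftRight (Nat.land C 1208925819614629174706175) 6)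
      4095) H) (seq (Nat.shiftRight C 80) fun C' => ih C') false) n

/-- the identifiers of a list are small. -/
noncomputable def okL (H : ℕ) (L : List (ℕ × ℕ)) : Bool :=
  List.rec (motive := fun _ => Bool) true (fun c _ ih => cond (okN H c.1 c.2) ih false) L

variable {F : Bool → Mt → ℝ}

theorem evN_tr {D : ℕ} {a t : CT} (h : okD D a t = true) (n : ℕ) : ∀ C : ℕ,
    okN (2 ^ D) n C = true → evN F t n C = evN F a n C := by
  induction n with
  | zero => intro C _; rfl
  | succ n ih =>
    intro C hC
    have h1 : cond (Nat.blt (Nat.land (Nat.shiftRight (Nat.land C 1208925819614629174706175) 6)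
      4095) (2 ^ D)) (seq (Nat.shiftRight C 80) fun C' => okN (2 ^ D) n C') false = true := hC
    have h2 : Nat.blt (Nat.land (Nat.shiftRight (Nat.land C 1208925819614629174706175) 6)
        4095) (2 ^ D) = true := by
      cases hz : Nat.blt (Nat.land (Nat.shiftRight (Nat.land C 1208925819614629174706175) 6)
        4095) (2 ^ D) with
      | false => rw [hz] at h1; exact absurd h1 (by simp)
      | true => rfl
    rw [h2] at h1
    simp only [cond_true, seq_eq] at h1
    have h3 : Nat.land (Nat.shiftRight (Nat.land C 1208925819614629174706175) 6) 4095 < 2 ^ D := by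
      rw [Nat.blt_eq] at h2; exact h2
    have e1 : evN F t (n + 1) C = ev F t (Nat.land C 1208925819614629174706175)
      + evN F t n (Nat.shiftRight C 80) := rfl
    have e2 : evN F a (n + 1) C = ev F a (Nat.land C 1208925819614629174706175)
      + evN F a n (Nat.shiftRight C 80) := rfl
    rw [e1, e2, ih _ h1]
    unfold ev
    rw [okD_get D h _ _ h3]

/-- **transfer of values.** -/
theorem evL_tr {D H : ℕ} {a t : CT} (h : okD D a t = true) (hH : H = 2 ^ D) :
    ∀ {L : List (ℕ × ℕ)}, okL H L = true → evL F t L = evL F a L := by
  subst hH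
  intro L
  induction L with
  | nil => intro _; rfl
  | cons c L ih =>
    intro hL
    have h1 : cond (okN (2 ^ D) c.1 c.2) (okL (2 ^ D) L) false = true := hL
    have h2 : okN (2 ^ D) c.1 c.2 = true := by
      cases hz : okN (2 ^ D) c.1 c.2 with
      | false => rw [hz] at h1; exact absurd h1 (by simp)
      | true => rfl
    rw [h2] at h1
    have h3 : okL (2 ^ D) L = true := h1
    have e1 : evL F t (c :: L) = evN F t c.1 c.2 + evL F t L := by
      simp only [evL, List.map_cons, List.sum_cons]
    have e2 : evL F a (c :: L) = evN F a c.1 c.2 + evL F a L := by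
      simp only [evL, List.map_cons, List.sum_cons]
    rw [e1, e2, evN_tr h _ _ h2, ih h3]

end Vale.Agent.P355.H909V.Tr
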